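import Vale.Agent.P040.H198.ArcDiag

/-!
# Spine stars

A spine star: a centre on the spine, arms to the given leaves, pieces of arms alternately in the
upper and in the lower page, no two pieces interleave.
-/

set_option autoImplicit false

namespace Vale.Agent.P040.Bp

open Topo Finset

/-- A star on the spine with the leaves `leaf x`. -/
structure SStar {m : ℕ} (leaf : Fin m → ℝ) where
  ctr : ℝ
  arm : Fin m → Arm
  ctr_ne : ∀ x, leaf x ≠ ctr
  arm_zero : ∀ x, (arm x).p 0 = ctr
  arm_last : ∀ x, (arm x).p (arm x).len = leaf x
  /-- the points on the spine are distinct, except for the centre -/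
  inj : ∀ x i y j, i ≤ (arm x).len → j ≤ (arm y).len → (arm x).p i = (arm y).p j →
    (x = y ∧ i = j) ∨ (i = 0 ∧ j = 0)
  /-- no two pieces interleave -/
  nc : ∀ x i y j, i < (arm x).len → j < (arm y).len → ¬ (arm x).Hit (arm y) i j

namespace SStar

variable {m : ℕ} {leaf : Fin m → ℝ}

/-- Two stars in general position: they have no common point on the spine but the leaves. -/
def GP (b k : SStar leaf) : Prop :=
  ∀ x i y j, i ≤ (b.arm x).len → j ≤ (k.arm y).len → (b.arm x).p i = (k.arm y).p j →
    x = y ∧ i = (b.arm x).len ∧ j = (k.arm y).len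

/-- The number of interleaving pairs of pieces. -/
noncomputable def cr (b k : SStar leaf) : ℕ := ∑ x, ∑ y, (b.arm x).cr (k.arm y)

end SStar

end Vale.Agent.P040.Bp
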