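import Vale.Agent.P040.H198.Bridge
import Vale.Agent.P040.Bp.SStar
import Vale.Agent.P040.Even.Cor

/-!
# The central statement (`Machine`) and the theorem on drawings which follows from it

A spine star: a centre on the spine, arms to the given leaves, pieces of arms alternately in the
upper and in the lower page, no two pieces interleave.
-/

set_option autoImplicit false

namespace Vale.Agent.P040.Bp

open Topo Finset

/-- **The machine** (to be proved from selector + words): every star has potentials `F b z`, to be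
read modulo `h - 1`, such that the sum over the leaves of the distances of two stars from being
antipodal is at most their number of crossings. -/
def Machine : Prop :=
  ∀ h : ℕ, 2 ≤ h → ∀ leaf : Fin (2 * h) → ℝ, Function.Injective leaf →
    ∃ F : SStar leaf → Fin (2 * h) → ℝ, ∀ b k : SStar leaf, b.GP k →
      ∃ q : Fin (2 * h) → ℤ,
        ∑ z, |F b z - F k z - ((h : ℝ) - 1) / 2 - ((h : ℝ) - 1) * q z| ≤ b.cr k

/-- The star of the centre `b` of an arc diagram. -/
def star {m n : ℕ} (A : ArcDiagram m n) (b : Fin n) : SStar A.leaf where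
  ctr := A.ctr b
  arm := fun x => A.arm x b
  ctr_ne := fun x => A.leaf_ne x b
  arm_zero := fun x => A.arm_zero x b
  arm_last := fun x => A.arm_last x b
  inj := by
    intro x i y j hi hj h
    rcases A.inj x b i y b j hi hj h with ⟨h1, -, h3⟩ | ⟨-, h2, h3⟩ | ⟨h1, h2, h3⟩
    · exact Or.inl ⟨h1, h3⟩
    · exact Or.inr ⟨h2, h3⟩
    · subst h1
      exact Or.inl ⟨rfl, h2.trans h3.symm⟩
  nc := fun x i y j hi hj => A.nc x b i y b j (Or.inr rfl) hi hj

theorem star_gp {m n : ℕ} (A : ArcDiagram m n) {b k : Fin n} (hbk : b ≠ k) :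
    (star A b).GP (star A k) := by
  intro x i y j hi hj h
  rcases A.inj x b i y k j hi hj h with ⟨-, h2, -⟩ | ⟨h2, -, -⟩ | h3
  · exact absurd h2 hbk
  · exact absurd h2 hbk
  · exact h3

/-- The lower bound for arc diagrams. -/
theorem zar_le_total (M : Machine) {h n : ℕ} (hh : 2 ≤ h) (A : ArcDiagram (2 * h) n) :
    zar (2 * h) n ≤ A.total := by
  classical
  obtain ⟨F, hF⟩ := M h hh A.leaf A.leaf_inj
  have hh' : (2 : ℝ) ≤ h := by exact_mod_cast hh
  have h1 := Even.thr (n := n) (Z := Fin (2 * h)) (fun _ => 1)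
    (fun _ => ((h : ℝ) - 1) / 2) (fun z b => F (star A b) z)
    (fun b k => (A.cr b k : ℝ)) (fun _ => zero_le_one) (fun _ => by linarith) (by
      intro b k hbk
      obtain ⟨q, hq⟩ := hF (star A b) (star A k) (star_gp A hbk.ne)
      refine ⟨q, le_trans (le_of_eq ?_) hq⟩
      apply Finset.sum_congr rfl
      intro z _
      rw [one_mul]
      congr 1
      ring)
  have h3 : (∑ z : Fin (2 * h), (1 : ℝ) * (((h : ℝ) - 1) / 2)) = h * (h - 1) := by
    rw [Finset.sum_const, card_univ, Fintype.card_fin, nsmul_eq_mul]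
    push_cast
    ring
  rw [h3] at h1
  have h4 : ∑ p ∈ Even.prs n, A.cr p.1 p.2 = A.total := by
    unfold ArcDiagram.total
    rw [Finset.sum_sigma']
    refine Finset.sum_bij' (fun p _ => ⟨p.1, p.2⟩) (fun p _ => (p.1, p.2)) ?_ ?_ ?_ ?_ ?_
    · intro p hp
      simpa [Even.prs] using hp
    · intro p hp
      simpa [Even.prs] using hp
    · intro p _; rfl
    · intro p _; rfl
    · intro p _; rfl
  have h5 : (zar (2 * h) n : ℝ) = (h : ℝ) * (h - 1) * (((n / 2) * ((n - 1) / 2) : ℕ) : ℝ) := by
    unfold zar
    rw [show 2 * h / 2 = h by omega, show (2 * h - 1) / 2 = h - 1 by omega]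
    push_cast [Nat.cast_sub (show 1 ≤ h by omega)]
    ring
  have h6 : (zar (2 * h) n : ℝ) ≤ (A.total : ℝ) := by
    rw [h5, ← h4]
    push_cast at h1 ⊢
    exact h1
  exact_mod_cast h6

/-- `Machine` implies Zarankiewicz's conjecture for even `m`. -/
theorem even_of_machine (M : Machine) : Even.EvenB := by
  intro m n hm D
  obtain ⟨h, rfl⟩ := hm
  rcases Nat.lt_or_ge h 2 with hh | hh
  · have : zar (h + h) n = 0 := by
      unfold zar
      have : (h + h - 1) / 2 = 0 := by omega
      rw [this]; simp
    omega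
  rcases Nat.eq_zero_or_pos n with hn | hn
  · subst hn
    have : zar (h + h) 0 = 0 := by unfold zar; simp
    omega
  obtain ⟨A, hA⟩ := exists_arcDiagram (by omega : 0 < h + h) hn D
  have e : h + h = 2 * h := by ring
  have key : ∀ (m : ℕ) (A : ArcDiagram m n), m = 2 * h → zar m n ≤ A.total := by
    intro m A hm
    subst hm
    exact zar_le_total M hh A
  exact (key _ A e).trans hA

end Vale.Agent.P040.Bp
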