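import Vale.Agent.P040.Bp.Machine
import Vale.Agent.P040.Hz.Path

/-!
# The plan: `Machine` from `Core` (potentials on diagram stars) and `PairPath` (words)

* `TEq L L'`: the tuples `L`, `L'` of (leaf, loop) agree up to rotation and simultaneous
  conjugation.
* `bar L`: the tuple of the antipodal star.
* `Core`: potentials `F` on a type `S` of stars with tuples `tup` in a group.
* `PairPath`: the words of two spine stars in general position.
-/

set_option autoImplicit false

namespace Vale.Agent.P040.Bp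

open Topo Finset Hz

variable {α G : Type*} [Group G]

/-- Simultaneous conjugation. -/
def cj (c : G) (L : List (α × G)) : List (α × G) := L.map fun p => (p.1, c * p.2 * c⁻¹)

/-- Equality of tuples up to rotation and simultaneous conjugation. -/
def TEq (L L' : List (α × G)) : Prop := ∃ c : G, (cj c L) ~r L'

/-- The tuple of the antipodal star. -/
def bar : List (α × G) → List (α × G)
  | [] => []
  | p :: L => cj p.2 (bar L) ++ [p]

theorem cj_one (L : List (α × G)) : cj 1 L = L := by
  unfold cj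
  simp

theorem cj_cj (c d : G) (L : List (α × G)) : cj c (cj d L) = cj (c * d) L := by
  unfold cj
  rw [List.map_map]
  apply List.map_congr_left
  intro p _
  simp only [Function.comp_apply, mul_inv_rev]
  congr 1
  group

theorem cj_rot (c : G) {L L' : List (α × G)} (h : L ~r L') : cj c L ~r cj c L' := h.map _

theorem TEq.refl (L : List (α × G)) : TEq L L := ⟨1, by rw [cj_one]⟩

theorem TEq.symm {L L' : List (α × G)} (h : TEq L L') : TEq L' L := by
  obtain ⟨c, hc⟩ := h
  refine ⟨c⁻¹, ?_⟩
  have := (cj_rot c⁻¹ hc).symm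
  rwa [cj_cj, inv_mul_cancel, cj_one] at this

theorem TEq.trans {L L' L'' : List (α × G)} (h : TEq L L') (h' : TEq L' L'') : TEq L L'' := by
  obtain ⟨c, hc⟩ := h
  obtain ⟨d, hd⟩ := h'
  refine ⟨d * c, ?_⟩
  rw [← cj_cj]
  exact (cj_rot d hc).trans hd

theorem TEq.of_rot {L L' : List (α × G)} (h : L ~r L') : TEq L L' := ⟨1, by rwa [cj_one]⟩

theorem TEq.of_cj (c : G) (L : List (α × G)) : TEq L (cj c L) := ⟨c, List.IsRotated.refl _⟩

/-- The distance of two families of potentials modulo `h - 1` is at most `B`. -/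
def Near (h : ℕ) (f g : Fin (2 * h) → ℝ) (B : ℝ) : Prop :=
  ∃ q : Fin (2 * h) → ℤ, ∑ z, |f z - g z - ((h : ℝ) - 1) * q z| ≤ B

theorem Near.symm {h : ℕ} {f g : Fin (2 * h) → ℝ} {B : ℝ} (H : Near h f g B) : Near h g f B := by
  obtain ⟨q, hq⟩ := H
  refine ⟨fun z => - q z, le_trans (le_of_eq ?_) hq⟩
  apply Finset.sum_congr rfl
  intro z _
  rw [← abs_neg]
  congr 1
  push_cast
  ring

theorem Near.trans {h : ℕ} {f g k : Fin (2 * h) → ℝ} {B C : ℝ} (H : Near h f g B)
    (H' : Near h g k C) : Near h f k (B + C) := by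
  obtain ⟨q, hq⟩ := H
  obtain ⟨r, hr⟩ := H'
  refine ⟨fun z => q z + r z, le_trans ?_ (add_le_add hq hr)⟩
  rw [← Finset.sum_add_distrib]
  apply Finset.sum_le_sum
  intro z _
  refine le_trans (le_of_eq ?_) (abs_add_le _ _)
  congr 1
  push_cast
  ring

theorem Near.refl {h : ℕ} (f : Fin (2 * h) → ℝ) : Near h f f 0 :=
  ⟨fun _ => 0, by simp⟩

/-- **Core** (selector side). `S`: diagram stars, `tup s`: the tuple of (leaf, loop) in the
counterclockwise order, `F`: the potentials.

`tw`, `tw'`: every Hurwitz move of the tuple (up to rotation and conjugation) is realised by a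
diagram star, and the potentials change by at most `1` in total.
`anti`: if the tuple of `s'` is the antipode of the tuple of `s` (up to rotation and conjugation),
the potentials differ by `(h - 1) / 2` modulo `h - 1`. -/
structure Core (h : ℕ) {S : Type} (tup : S → List (Fin (2 * h) × G))
    (F : S → Fin (2 * h) → ℝ) : Prop where
  tw : ∀ (s : S) (x : Fin (2 * h)) (g : G) (y : Fin (2 * h)) (k : G) (R : List (Fin (2 * h) × G)),
    TEq (tup s) ((x, g) :: (y, k) :: R) →
      ∃ s', TEq (tup s') ((y, g * k * g⁻¹) :: (x, g) :: R) ∧ Near h (F s) (F s') 1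
  tw' : ∀ (s : S) (x : Fin (2 * h)) (g : G) (y : Fin (2 * h)) (k : G)
    (R : List (Fin (2 * h) × G)),
    TEq (tup s) ((x, g) :: (y, k) :: R) →
      ∃ s', TEq (tup s') ((y, k) :: (x, k⁻¹ * g * k) :: R) ∧ Near h (F s) (F s') 1
  anti : ∀ s s' : S, TEq (tup s') (bar (tup s)) → ∀ z, ∃ q : ℤ,
    F s' z = F s z + ((h : ℝ) - 1) / 2 + ((h : ℝ) - 1) * q

/-- **PairPath** (words side): for two spine stars in general position the tuple of `b` is joined
to the antipode of the tuple of `k` by at most `b.cr k` Hurwitz moves. -/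
def PairPath {h : ℕ} {leaf : Fin (2 * h) → ℝ} {S : Type} (tup : S → List (Fin (2 * h) × G))
    (conv : SStar leaf → S) : Prop :=
  ∀ b k : SStar leaf, b.GP k → ∃ n L L', n ≤ b.cr k ∧ TEq (tup (conv b)) L ∧
    HzPath n L L' ∧ TEq L' (bar (tup (conv k)))

theorem Core.path {h : ℕ} {S : Type} {tup : S → List (Fin (2 * h) × G)}
    {F : S → Fin (2 * h) → ℝ} (C : Core h tup F) {n : ℕ} {L L' : List (Fin (2 * h) × G)}
    (p : HzPath n L L') : ∀ s : S, TEq (tup s) L →
      ∃ s', TEq (tup s') L' ∧ Near h (F s) (F s') n := by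
  induction p with
  | refl L =>
    intro s hs
    exact ⟨s, hs, by simpa using Near.refl (F s)⟩
  | @rot n L p L' _ ih =>
    intro s hs
    refine ih s (hs.trans (TEq.of_rot ?_))
    exact ⟨1, by simp⟩
  | @tw n x g y k R L' _ ih =>
    intro s hs
    obtain ⟨s1, h1, h2⟩ := C.tw s x g y k R hs
    obtain ⟨s2, h3, h4⟩ := ih s1 h1
    refine ⟨s2, h3, ?_⟩
    have := h2.trans h4
    push_cast
    rwa [add_comm (n : ℝ) 1]
  | @tw' n x g y k R L' _ ih =>
    intro s hs
    obtain ⟨s1, h1, h2⟩ := C.tw' s x g y k R hs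
    obtain ⟨s2, h3, h4⟩ := ih s1 h1
    refine ⟨s2, h3, ?_⟩
    have := h2.trans h4
    push_cast
    rwa [add_comm (n : ℝ) 1]

/-- `Machine` from `Core` and `PairPath`. -/
theorem machine_of_core
    (H : ∀ h : ℕ, 2 ≤ h → ∀ leaf : Fin (2 * h) → ℝ, Function.Injective leaf →
      ∃ (G : Type) (_ : Group G) (S : Type) (tup : S → List (Fin (2 * h) × G))
        (F : S → Fin (2 * h) → ℝ) (conv : SStar leaf → S), Core h tup F ∧ PairPath tup conv) :
    Machine := by
  intro h hh leaf hl
  obtain ⟨G, _, S, tup, F, conv, C, P⟩ := H h hh leaf hl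
  refine ⟨fun b => F (conv b), ?_⟩
  intro b k hbk
  obtain ⟨n, L, L', hn, h1, h2, h3⟩ := P b k hbk
  obtain ⟨s', h4, q, hq⟩ := C.path h2 (conv b) h1
  have h5 := C.anti (conv k) s' (h4.trans h3)
  choose r hr using h5
  refine ⟨fun z => q z + r z, ?_⟩
  have hn' : (n : ℝ) ≤ (b.cr k : ℝ) := by exact_mod_cast hn
  refine le_trans (le_of_eq ?_) (hq.trans hn')
  apply Finset.sum_congr rfl
  intro z _
  rw [hr z]
  congr 1
  push_cast
  ring

end Vale.Agent.P040.Bp
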